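import Vale.Agent.P092GB.Root

/-!
P092, group package (helper61): the building data `Bld`, `Gal` from the flag and panel packages,
in both orientations.
-/

set_option linter.all false

open Filter Topology

namespace Vale.Agent.P092GB

open Vale.Agent.P092GK Vale.Agent.P092MG FlD

variable {k : Type} [NontriviallyNormedField k] {G : Type} [Group G] {r : ℕ}

/-- the minimal cell `U⁻ Z U⁺` -/
def Dm (F : FlD k G r) : MnD G := ⟨F.Um, F.Z, F.Up, F.P Finset.univ, F.M, F.N Finset.univ⟩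

/-- the minimal cell `U⁺ Z U⁻` -/
def Dp (F : FlD k G r) : MnD G := ⟨F.Up, F.Z, F.Um, F.Pm Finset.univ, F.M, F.Nm Finset.univ⟩

variable [TopologicalSpace G] [IsTopologicalGroup G]

/-- the panels of `Dm` -/
noncomputable def Em (F : FlD k G r) (s : Fin r → G) (i : Fin r) : PnD G :=
  ⟨F.U' (Finset.univ.erase i), F.L₁ i, F.U (Finset.univ.erase i), F.P (Finset.univ.erase i), L0 F i,
    s i, fun z => -F.ℓ z i⟩

/-- the panels of `Dp` -/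
noncomputable def Ep (F : FlD k G r) (s : Fin r → G) (i : Fin r) : PnD G :=
  ⟨F.U (Finset.univ.erase i), F.L₁ i, F.U' (Finset.univ.erase i), F.Pm (Finset.univ.erase i),
    L0 F i, s i, fun z => F.ℓ z i⟩

variable [T2Space G] {F : FlD k G r} (h : Fl F) {i : Fin r} {g z : G}
include h

theorem Dm_Ω : (Dm F).Ω = F.Ω := by
  ext g
  refine ⟨?_, fun hg => ⟨_, h.lo_mem g hg, trivial, _, h.md_mem hg, trivial, _, h.up_mem g hg,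
    (F.lo_md_up g).symm⟩⟩
  rintro ⟨u, hu, -, z, hz, -, v, hv, rfl⟩
  exact h.cell_mem hu hz hv

theorem Dp_Ω : g ∈ (Dp F).Ω ↔ g⁻¹ ∈ F.Ω := by
  refine ⟨?_, fun hg => ⟨_, F.Up.inv_mem (h.up_mem _ hg), trivial, _, F.Z.inv_mem (h.md_mem hg),
    trivial, _, F.Um.inv_mem (h.lo_mem _ hg), by rw [FlD.md]; group⟩⟩
  rintro ⟨u, hu, -, z, hz, -, v, hv, rfl⟩
  rw [show (u * z * v)⁻¹ = v⁻¹ * z⁻¹ * u⁻¹ by group]
  exact h.cell_mem (F.Um.inv_mem hv) (F.Z.inv_mem hz) (F.Up.inv_mem hu)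

theorem ab_M {a b : G} (ha : a ∈ F.Z) (hb : b ∈ F.Z) : a * b * a⁻¹ * b⁻¹ ∈ F.M :=
  have h1 := F.Z.mul_mem (F.Z.mul_mem ha hb) (F.Z.inv_mem ha)
  h.mem_M.2 ⟨F.Z.mul_mem h1 (F.Z.inv_mem hb), by
    rw [h.ℓ_mul h1 (F.Z.inv_mem hb), h.ℓ_conj ha, h.ℓ_inv hb, add_neg_cancel]⟩

theorem tf_M (hz : z ∈ F.Z) {n : ℕ} (hn : n ≠ 0) (e : z ^ n ∈ F.M) : z ∈ F.M :=
  h.mem_M.2 ⟨hz, by simpa [h.ℓ_pow hz, hn] using (h.mem_M.1 e).2⟩

theorem mn_m (td : TD G) : Mn (Dm F) := by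
  refine ⟨(c2_univ h).cell, td, opM h td, h.cpt_M, fun _ => h.N_univ, fun _ a _ b => ab_M h a b,
    fun _ a _ b c => tf_M h a b c, Dm_Ω h ▸ h.dense, ?_, fun u hu => td.ic (h.U'_univ.2 hu)⟩
  obtain ⟨C, hC, hg⟩ := h.iwa
  refine ⟨C, hC, fun g => ?_⟩
  obtain ⟨x, hx, z, hz, u, hu, rfl⟩ := hg g
  exact ⟨x, hx, h.P_univ.2 ⟨z, hz, u, hu, by group⟩⟩

theorem dense_p : Dense (Dp F).Ω := by
  rw [show (Dp F).Ω = (Homeomorph.inv G) ⁻¹' F.Ω from Set.ext fun _ => Dp_Ω h]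
  exact h.dense.preimage (Homeomorph.inv G).isOpenMap

theorem mn_p (td : TD G) : Mn (Dp F) := by
  refine ⟨(c2_univ h).symm.cell, td, opM h td, h.cpt_M, fun _ => h.Nm_univ,
    fun _ a _ b => ab_M h a b, fun _ a _ b c => tf_M h a b c, dense_p h, ?_,
    fun u hu => td.ic (c := fun n => (F.cb Finset.univ ^ n)⁻¹)
      (by simp only [inv_inv]; exact h.U_univ.2 hu)⟩
  obtain ⟨C, hC, hg⟩ := h.iwa'
  refine ⟨_, hC.inv, fun g => ?_⟩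
  obtain ⟨u, hu, z, hz, x, hx, e⟩ := hg g⁻¹
  refine ⟨x⁻¹, by simpa using hx, ?_⟩
  rw [← inv_inv g, e, show x⁻¹⁻¹ * (u * z * x)⁻¹ = (u * z)⁻¹ by group]
  exact (F.Pm _).inv_mem (h.Pm_univ.2 ⟨u, hu, z, hz, rfl⟩)

theorem up_L0 (hu : g ∈ F.Up) (hl : g ∈ F.L₁ i) : g ∈ L0 F i :=
  (mem_L0 h).2 ⟨hl, fun j _ => by rw [h.Δ_of_up hu, norm_one]⟩

theorem um_L0 (hu : g ∈ F.Um) (hl : g ∈ F.L₁ i) : g ∈ L0 F i :=
  (mem_L0 h).2 ⟨hl, fun j _ => by rw [h.Δ_of_um hu, norm_one]⟩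

theorem ab_L0 {a b : G} (ha : a ∈ F.L₁ i) (hb : b ∈ F.L₁ i) : a * b * a⁻¹ * b⁻¹ ∈ L0 F i :=
  (mem_L0 h).2 ⟨(F.L₁ i).mul_mem ((F.L₁ i).mul_mem ((F.L₁ i).mul_mem ha hb) ((F.L₁ i).inv_mem ha))
    ((F.L₁ i).inv_mem hb), fun j hj => by
      rw [Δ_L h hj _ ((F.L₁ i).inv_mem hb), Δ_L_conj h hj ha hb, Δ_L_inv h hj hb, norm_one]⟩

theorem tf_L0 (hz : z ∈ F.Z) {n : ℕ} (hn : n ≠ 0) (e : z ^ n ∈ L0 F i) : z ∈ L0 F i :=
  (z_mem_L0 h hz).2 fun j hj => by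
    simpa [h.ℓ_pow hz, ω_smul, hn] using (z_mem_L0 h (F.Z.pow_mem hz n)).1 e j hj

theorem M_L0 (i : Fin r) : F.M ≤ L0 F i := fun _ hz => ⟨h.z_mem_L hz.1 _, h.M_le_N _ hz⟩

variable {s : Fin r → G} {N : ℕ} {τ : ℕ → Fin r} {w : ℕ → G} (hp : Pan F s N τ w)
include hp

theorem s_L0 (i : Fin r) : s i ∈ L0 F i := by
  obtain ⟨u, a1, v, a2, v', a3, b1, b2, b3, -, e⟩ := hp.gen i
  exact e ▸ (L0 F i).mul_mem ((L0 F i).mul_mem (um_L0 h a2 b2) (up_L0 h a1 b1)) (um_L0 h a3 b3)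

theorem s_notZ (i : Fin r) : s i ∉ F.Z := fun hs => by
  obtain ⟨u, a1, -, -, -, -, b1, -, -, a, -⟩ := hp.gen i
  exact a (by simpa using h.cell_one ((hp.sU i u b1).1 a1) F.Z.one_mem (h.zup _ hs u a1) (one_mul _).symm)

theorem sZ' (hz : z ∈ F.Z) : (s i)⁻¹ * z * s i ∈ F.Z := (hp.sZ i _).2 (by simpa [mul_assoc] using hz)

theorem ℓ_s (hz : z ∈ F.Z) : F.ℓ (s i * z * (s i)⁻¹) = F.ℓ z - F.ℓ z i • cr F (s i) i :=
  ℓ_refl h (s_L0 h hp i).1 (fun z => (hp.sZ i z).1) hz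

theorem ℓ_s' (hz : z ∈ F.Z) : F.ℓ ((s i)⁻¹ * z * s i) = F.ℓ z - F.ℓ z i • cr F (s i) i := by
  rw [← ℓ_s h hp hz, ← h.ℓ_conj (hp.ss i)]
  congr 1
  group

theorem cr_s (i : Fin r) : cr F (s i) i i = 2 :=
  cr_two h (s_L0 h hp i).1 (fun z => (hp.sZ i z).1) (hp.ss i) (s_notZ h hp i)

theorem ℓ_L0 (hz : z ∈ F.Z) (e : z ∈ L0 F i) : F.ℓ z = (F.ℓ z i / 2) • cr F (s i) i :=
  line h (fun _ => ω_cr h (s_L0 h hp i).1) (cr_s h hp i) ((z_mem_L0 h hz).1 e)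

theorem nM (z : G) : z ∈ F.M ↔ s i * z * (s i)⁻¹ ∈ F.M :=
  ⟨h.M_conj fun z => (hp.sZ i z).1, fun a => by
    simpa [mul_assoc] using h.M_conj (q := (s i)⁻¹) (fun z hz => by simpa using sZ' h hp hz) a⟩

theorem sU' (hu : g ∈ F.L₁ i) : g ∈ F.Um ↔ s i * g * (s i)⁻¹ ∈ F.Up := by
  have hs := (s_L0 h hp i).1
  rw [hp.sU i _ ((F.L₁ i).mul_mem ((F.L₁ i).mul_mem hs hu) ((F.L₁ i).inv_mem hs)),
    show s i * (s i * g * (s i)⁻¹) * (s i)⁻¹ = s i * s i * g * (s i * s i)⁻¹ by group]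
  exact ⟨h.zum _ (hp.ss i) g, fun a => by
    simpa [mul_assoc] using h.zum _ (F.Z.inv_mem (hp.ss i)) _ a⟩

theorem neg (hz : z ∈ F.Z) (e : z ∈ L0 F i) : s i * z * (s i)⁻¹ * z ∈ F.M :=
  h.mem_M.2 ⟨F.Z.mul_mem ((hp.sZ i z).1 hz) hz, by
    rw [h.ℓ_mul ((hp.sZ i z).1 hz) hz, ℓ_s h hp hz]
    have := ℓ_L0 h hp hz e
    generalize F.ℓ z i = t at this
    rw [this]
    module⟩

theorem χ_zero (hz : z ∈ F.Z) : F.ℓ z i = 0 ↔ (s i)⁻¹ * z * s i * z⁻¹ ∈ F.M := by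
  rw [h.mem_M, and_iff_right (F.Z.mul_mem (sZ' h hp hz) (F.Z.inv_mem hz)),
    h.ℓ_mul (sZ' h hp hz) (F.Z.inv_mem hz), ℓ_s' h hp hz, h.ℓ_inv hz]
  refine ⟨fun e => by simp [e], fun e => ?_⟩
  have := congrFun e i
  simp only [Pi.add_apply, Pi.sub_apply, Pi.smul_apply, Pi.neg_apply, cr_s h hp i, smul_eq_mul,
    Pi.zero_apply] at this
  linarith

theorem rk_L0 (td : TD G) {a b : G} (ha : a ∈ F.Z) (ha' : a ∈ L0 F i) (hb : b ∈ F.Z)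
    (hb' : b ∈ L0 F i) (hM : b ∉ F.M) : ∃ m : ℕ, m ≠ 0 ∧ ∃ n : ℤ, a ^ m * b ^ n ∈ F.M := by
  have e := ℓ_L0 h hp hb hb'
  have h0 : F.ℓ b i ≠ 0 := fun c => hM (h.mem_M.2 ⟨hb, by rw [e, c]; simp⟩)
  refine rk h td ha hb (t := F.ℓ a i / F.ℓ b i) ?_
  conv_lhs => rw [ℓ_L0 h hp ha ha']
  conv_rhs => rw [e, smul_smul]
  congr 1
  rw [← e]
  field_simp

theorem bru_p {l : G} (hl : l ∈ F.L₁ i) : l ∈ F.Pm Finset.univ ∨ (s i)⁻¹ * l ∈ (Dp F).Ω := by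
  have hs := (s_L0 h hp i).1
  have h1 := (F.L₁ i).mul_mem ((F.L₁ i).mul_mem ((F.L₁ i).inv_mem hs) hl) hs
  rcases hp.bru i _ h1 with a | a
  · obtain ⟨z, hz, u, hu, e⟩ := h.P_univ.1 a
    have h2 : u ∈ F.L₁ i := by
      rw [show u = z⁻¹ * ((s i)⁻¹ * l * s i) by rw [e]; group]
      exact (F.L₁ i).mul_mem (h.z_mem_L (F.Z.inv_mem hz) _) h1
    rw [show l = s i * z * (s i)⁻¹ * (s i * u * (s i)⁻¹) by
      rw [← mul_inv_cancel_left (s i) l, ← mul_inv_cancel_right ((s i)⁻¹ * l) (s i), e]; group]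
    exact Or.inl ((F.Pm _).mul_mem (h.z_mem_Pm ((hp.sZ i z).1 hz) _)
      (h.um_mem_Pm ((hp.sU i u h2).1 hu) _))
  · have h2 := (F.L₁ i).mul_mem ((F.L₁ i).inv_mem hs) h1
    refine Or.inr ⟨_, (sU' h hp (h.lo_mem_P a (h.L_le_P _ h2))).1 (h.lo_mem _ a), trivial, _,
      (hp.sZ i _).1 (h.md_mem a), trivial, _,
      (hp.sU i _ (h.up_mem_Pm a (h.L_le_Pm _ h2))).1 (h.up_mem _ a), ?_⟩
    rw [FlD.md]
    group

theorem pn_m (td : TD G) (i : Fin r) : Pn (Dm F) (Em F s i) where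
  cell := (c2 h _).cell
  ZL _ a := h.z_mem_L a _
  II := h.U'_le_Um _
  JJ := h.U_le_Up _
  decI u hu := by
    obtain ⟨l, hl, v, hv, rfl⟩ := h.levi' (h.um_mem_Pm hu (Finset.univ.erase i))
    exact ⟨_, h.U'_conj hl hv, by simpa [mul_assoc, Em] using hl⟩
  decJ _ hu := h.up_mem_P hu _
  op₁ := op0 h td i
  ab₁ _ a _ b := ab_L0 h a b
  tf₁ _ a _ b c := tf_L0 h a b c
  M₁ := M_L0 h i
  I₁ _ := um_L0 h
  n₁ := s_L0 h hp i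
  nZ := hp.sZ i
  nM := nM h hp
  nn := hp.ss i
  nR _ := sU' h hp
  neg _ := neg h hp
  bru l hl := Dm_Ω h ▸ hp.bru i l hl
  χmul a ha b hb := by simp only [Em, h.ℓ_mul ha hb, Pi.add_apply, neg_add]
  χzero _ hz := neg_eq_zero.trans (χ_zero h hp hz)
  χne := ⟨_, h.bZ i, by simp [Em, h.bℓ, h.β_pos.ne']⟩
  rk _ a b _ c d e := rk_L0 h hp td a b c d e
  con _ a b _ c d _ e := con_up h a b c d e

theorem pn_p (td : TD G) (i : Fin r) : Pn (Dp F) (Ep F s i) where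
  cell := (c2 h _).symm.cell
  ZL _ a := h.z_mem_L a _
  II := h.U_le_Up _
  JJ := h.U'_le_Um _
  decI u hu := by
    obtain ⟨l, hl, v, hv, rfl⟩ := h.levi (h.up_mem_P hu (Finset.univ.erase i))
    exact ⟨_, h.U_conj hl hv, by simpa [mul_assoc, Ep] using hl⟩
  decJ _ hu := h.um_mem_Pm hu _
  op₁ := op0 h td i
  ab₁ _ a _ b := ab_L0 h a b
  tf₁ _ a _ b c := tf_L0 h a b c
  M₁ := M_L0 h i
  I₁ _ := up_L0 h
  n₁ := s_L0 h hp i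
  nZ := hp.sZ i
  nM := nM h hp
  nn := hp.ss i
  nR := hp.sU i
  neg _ := neg h hp
  bru _ := bru_p h hp
  χmul a ha b hb := congrFun (h.ℓ_mul ha hb) i
  χzero _ hz := χ_zero h hp hz
  χne := ⟨_, h.bZ i, by simp [Ep, h.bℓ, h.β_pos.ne']⟩
  rk _ a b _ c d e := rk_L0 h hp td a b c d e
  con _ a b _ c d _ e := con_um h a b c d e

theorem ind {j : Fin r} (hj : j ≠ i) : ∃ a ∈ F.Z, a * (s j)⁻¹ * a⁻¹ * s j ∉ L0 F i := by
  have hb := F.Z.inv_mem (h.bZ j)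
  refine ⟨_, h.bZ j, fun a => ?_⟩
  rw [mul_assoc, mul_assoc, ← mul_assoc (s j)⁻¹,
    z_mem_L0 h (F.Z.mul_mem (h.bZ j) (sZ' h hp hb)), h.ℓ_mul (h.bZ j) (sZ' h hp hb), ℓ_s' h hp hb,
    h.ℓ_inv (h.bZ j), h.bℓ] at a
  have h1 : F.ω (cr F (s j) j) = 0 := funext fun m => by
    rcases eq_or_ne m j with rfl | hm
    · simpa [ω_smul, h.β_pos.ne'] using a m hj
    · exact ω_cr h (s_L0 h hp j).1 hm
  have h2 := cr_s h hp j
  rw [← h.co_ω (cr F (s j) j), h1, co_zero] at h2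
  simp at h2

theorem n₀_s (i : Fin r) : (s (F.ι i))⁻¹ * (F.n₀ * s i * F.n₀⁻¹) ∈ F.Z := by
  have hn : ∀ z ∈ F.Z, F.n₀⁻¹ * z * F.n₀ ∈ F.Z := fun z hz =>
    (h.n₀Z _).2 (by simpa [mul_assoc] using hz)
  have h1 : ∀ z ∈ F.Z, F.n₀ * s i * F.n₀⁻¹ * z * (F.n₀ * s i * F.n₀⁻¹)⁻¹ ∈ F.Z := fun z hz => by
    simpa [mul_assoc] using (h.n₀Z _).1 ((hp.sZ i _).1 (hn z hz))
  have h2 := h.n₀_L (s_L0 h hp i).1
  rw [Finset.image_erase F.ι.injective, Finset.image_univ_equiv] at h2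
  rcases hp.bru _ _ h2 with a | a
  · refine absurd ((h.n₀Z _).2 (Z_of_Ω h (fun j => h.Δ_ne_P a (Finset.mem_univ j)) h1))
      (s_notZ h hp i)
  · exact Z_of_Ω h a fun z hz => by simpa [mul_assoc] using sZ' h hp (i := F.ι i) (h1 z hz)

theorem bn_p (S S' : Subgroup G) (hS : F.Pm Finset.univ ≤ S) (hS' : F.Pm Finset.univ ≤ S')
    (e : ∀ i, s i ∈ S → s i ∈ S') : S ≤ S' := by
  let φ := (MulAut.conj F.n₀).toMonoidHom
  have h1 : ∀ T : Subgroup G, F.Pm Finset.univ ≤ T → F.P Finset.univ ≤ T.comap φ := fun T hT g hg =>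
    hT (by simpa [φ] using h.n₀_P hg)
  have h2 : ∀ T : Subgroup G, F.Pm Finset.univ ≤ T → ∀ i, s i ∈ T.comap φ ↔ s (F.ι i) ∈ T :=
    fun T hT i => by
      rw [← T.mul_mem_cancel_right (hT (h.z_mem_Pm (n₀_s h hp i) _)), mul_inv_cancel_left]
      rfl
  have h3 := hp.bn _ _ (h1 S hS) (h1 S' hS') fun i a => (h2 S' hS' i).2 (e _ ((h2 S hS i).1 a))
  exact fun g hg => by
    simpa [φ, mul_assoc] using h3 (x := F.n₀⁻¹ * g * F.n₀) (by simpa [φ, mul_assoc] using hg)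

/-- **the building data**, orientation `(U⁻, U⁺)` -/
theorem bld_m (td : TD G) : Bld (Dm F) (Em F s) :=
  ⟨mn_m h td, pn_m h hp td, hp.bn, fun i j a =>
    ind h hp fun e => a (e ▸ h.L_le_P _ (s_L0 h hp j).1)⟩

/-- **the building data**, orientation `(U⁺, U⁻)` -/
theorem bld_p (td : TD G) : Bld (Dp F) (Ep F s) :=
  ⟨mn_p h td, pn_p h hp td, bn_p h hp, fun i j a =>
    ind h hp fun e => a (e ▸ h.L_le_Pm _ (s_L0 h hp j).1)⟩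

theorem wN_conj : (∀ z ∈ F.Z, (w N)⁻¹ * z * w N ∈ F.Z) ∧ (∀ u ∈ F.Up, (w N)⁻¹ * u * w N ∈ F.Um) ∧
    ∀ u ∈ F.Um, (w N)⁻¹ * u * w N ∈ F.Up := by
  have hz := F.Z.inv_mem hp.last
  have e : ∀ x, (w N)⁻¹ * x * w N =
      (F.n₀⁻¹ * w N)⁻¹ * (F.n₀⁻¹ * x * F.n₀) * (F.n₀⁻¹ * w N)⁻¹⁻¹ := fun x => by group
  simp only [e]
  exact ⟨fun z a => F.Z.mul_mem (F.Z.mul_mem hz ((h.n₀Z _).2 (by simpa [mul_assoc] using a)))
      (F.Z.inv_mem hz),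
    fun u a => h.zum _ hz _ ((h.n₀um _).2 (by simpa [mul_assoc] using a)),
    fun u a => h.zup _ hz _ ((h.n₀up _).2 (by simpa [mul_assoc] using a))⟩

theorem gal_m : Gal (Dm F) (Em F s) N τ w := by
  refine ⟨hp.zero, hp.step, (h.dense.preimage (Homeomorph.mulRight (w N)⁻¹).isOpenMap).mono ?_,
    fun n a m b c => by simpa [Em, Dm] using hp.wall n a m b c⟩
  refine fun g (hg : g * (w N)⁻¹ ∈ F.Ω) =>
    ⟨_, h.lo_mem _ hg, _, h.md_mem hg, _, (wN_conj h hp).2.1 _ (h.up_mem _ hg), ?_⟩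
  rw [FlD.md]
  group

theorem gal_p : Gal (Dp F) (Ep F s) N τ w := by
  refine ⟨hp.zero, hp.step, ((dense_p h).preimage (Homeomorph.mulRight (w N)⁻¹).isOpenMap).mono ?_,
    hp.wall⟩
  rintro g ⟨u, hu, -, z, hz, -, v, hv, e⟩
  exact ⟨u, hu, z, hz, _, (wN_conj h hp).2.2 v hv, by
    rw [← inv_mul_cancel_right g (w N), show g * (w N)⁻¹ = _ from e]; group⟩

end Vale.Agent.P092GB
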