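import Vale.Agent.P092GK.Pair
import Vale.Agent.P092GK.PanD
import Vale.Agent.P092MG.Defs

/-!
P092, group package (helper61): big cells and open subgroups from the flag package.
-/

set_option linter.all false

open Filter Topology

namespace Vale.Agent.P092GB

open Vale.Agent.P092GK Vale.Agent.P092MG FlD

variable {G : Type} [Group G] [TopologicalSpace G] [IsTopologicalGroup G]

/-- there are small compact open subgroups -/
def TD (G : Type) [Group G] [TopologicalSpace G] : Prop :=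
  ∀ O ∈ 𝓝 (1 : G), ∃ K : Subgroup G, IsOpen (K : Set G) ∧ IsCompact (K : Set G) ∧ (K : Set G) ⊆ O

/-- a big cell, symmetric form -/
structure C2 (I L J Q Q' : Subgroup G) : Prop where
  nI : ∀ l ∈ L, ∀ u ∈ I, l * u * l⁻¹ ∈ I
  nJ : ∀ l ∈ L, ∀ v ∈ J, l * v * l⁻¹ ∈ J
  memQ : ∀ g, g ∈ Q ↔ ∃ l ∈ L, ∃ v ∈ J, g = l * v
  memQ' : ∀ g, g ∈ Q' ↔ ∃ l ∈ L, ∃ v ∈ I, g = l * v
  uI : ∀ u ∈ I, u ∈ Q → u = 1
  uJ : ∀ u ∈ J, u ∈ Q' → u = 1
  loc : ∀ O ∈ 𝓝 (1 : G), ∀ᶠ x in 𝓝 (1 : G), ∃ u ∈ I, u ∈ O ∧ ∃ l ∈ L, l ∈ O ∧ ∃ v ∈ J, v ∈ O ∧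
    x = u * l * v
  clI : IsClosed (I : Set G)
  clL : IsClosed (L : Set G)
  clJ : IsClosed (J : Set G)
  clQ : IsClosed (Q : Set G)
  clQ' : IsClosed (Q' : Set G)

variable {I L J Q Q' K : Subgroup G}

theorem C2.symm (h : C2 I L J Q Q') : C2 J L I Q' Q := by
  refine ⟨h.nJ, h.nI, h.memQ', h.memQ, h.uJ, h.uI, fun O hO => ?_, h.clJ, h.clL, h.clI, h.clQ',
    h.clQ⟩
  have h1 : Tendsto (fun x : G => x⁻¹) (𝓝 1) (𝓝 1) := by simpa using continuous_inv.tendsto (1 : G)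
  filter_upwards [h1.eventually (h.loc _ (h1 hO))] with x ⟨u, hu, a, l, hl, b, v, hv, c, e⟩
  exact ⟨_, J.inv_mem hv, c, _, L.inv_mem hl, b, _, I.inv_mem hu, a, by
    rw [← inv_inv x, e]; group⟩

theorem C2.cell (h : C2 I L J Q Q') : Cell I L J Q := by
  refine ⟨h.nI, h.nJ, h.memQ, fun u hu l hl v hv e => ?_, fun S T hS hT => ?_, h.clI, h.clL, h.clJ,
    h.clQ, ?_⟩
  · have h1 := h.uI u hu (by
      rw [show u = (l * v)⁻¹ from eq_inv_of_mul_eq_one_left (by rw [← e, mul_assoc])]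
      exact Q.inv_mem ((h.memQ _).2 ⟨l, hl, v, hv, rfl⟩))
    rw [h1, one_mul] at e
    have h2 := h.uJ v hv ((h.memQ' _).2 ⟨l⁻¹, L.inv_mem hl, 1, I.one_mem, by
      rw [mul_one]; exact eq_inv_of_mul_eq_one_right e⟩)
    exact ⟨h1, by rwa [h2, mul_one] at e⟩
  · refine isOpen_iff_mem_nhds.2 ?_
    rintro _ ⟨u, hu, a, l, hl, b, v, hv, rfl⟩
    have h1 : ∀ᶠ x in 𝓝 (1 : G), u * (l * x * l⁻¹) ∈ S ∧ l * x ∈ T :=
      (ContinuousAt.eventually_mem (by fun_prop) (by simpa using hS.mem_nhds a)).and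
        (ContinuousAt.eventually_mem (by fun_prop) (by simpa using hT.mem_nhds b))
    have h2 : Tendsto (fun g => (u * l)⁻¹ * g * v⁻¹) (𝓝 (u * l * v)) (𝓝 1) :=
      Continuous.tendsto' (by fun_prop) _ _ (by group)
    filter_upwards [h2.eventually (h.loc _ h1)] with g ⟨u', hu', a', l', hl', b', v', hv', _, e⟩
    exact ⟨_, I.mul_mem hu (h.nI l hl u' hu'), a'.1, _, L.mul_mem hl hl', b'.2, _,
      J.mul_mem hv' hv, by rw [show g = u * l * (u' * l' * v') * v by rw [← e]; group]; group⟩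
  · convert h.clQ' using 1
    ext g
    refine ⟨?_, fun hg => ?_⟩
    · rintro ⟨u, hu, l, hl, rfl⟩
      exact (h.memQ' _).2 ⟨l, hl, _, h.nI _ (L.inv_mem hl) u hu, by group⟩
    · obtain ⟨l, hl, u, hu, rfl⟩ := (h.memQ' g).1 hg
      exact ⟨_, h.nI l hl u hu, l, hl, by group⟩

theorem opIn_of (hK : K ≤ L) {O : Set G} (hO : IsOpen O) (h1 : (1 : G) ∈ O)
    (h : ∀ l ∈ L, l ∈ O → l ∈ K) : OpIn K L := by
  refine ⟨hK, ⋃ m ∈ K, (fun x => m⁻¹ * x) ⁻¹' O,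
    isOpen_biUnion fun m _ => hO.preimage (by fun_prop), fun l hl => ⟨fun a => ?_, fun a => ?_⟩⟩
  · exact Set.mem_biUnion a (by simpa using h1)
  · obtain ⟨m, hm, b⟩ := Set.mem_iUnion₂.1 a
    simpa using K.mul_mem hm (h _ (L.mul_mem (L.inv_mem (hK hm)) hl) b)

/-- contracted elements lie in compact subgroups -/
theorem TD.ic (td : TD G) {u : G} {c : ℕ → G}
    (h : Tendsto (fun n => c n * u * (c n)⁻¹) atTop (𝓝 1)) :
    ∃ C : Subgroup G, IsCompact (C : Set G) ∧ u ∈ C := by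
  obtain ⟨K, h1, h2, -⟩ := td _ univ_mem
  obtain ⟨n, hn⟩ := (h.eventually (h1.mem_nhds K.one_mem)).exists
  refine ⟨K.comap (MulAut.conj (c n)).toMonoidHom, ?_, hn⟩
  convert h2.image (f := fun x => (c n)⁻¹ * x * c n) (by fun_prop) using 1
  ext x
  exact ⟨fun a => ⟨_, a, by simp [mul_assoc]⟩, by
    rintro ⟨y, hy, rfl⟩
    show c n * ((c n)⁻¹ * y * c n) * (c n)⁻¹ ∈ K
    simpa [mul_assoc] using hy⟩

variable {k : Type} [NontriviallyNormedField k] {r : ℕ} {F : FlD k G r} [T2Space G]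

theorem c2 (h : Fl F) (θ : Finset (Fin r)) : C2 (F.U' θ) (F.L θ) (F.U θ) (F.P θ) (F.Pm θ) := by
  refine ⟨fun l hl u hu => h.U'_conj hl hu, fun l hl u hu => h.U_conj hl hu,
    fun g => ⟨h.levi, ?_⟩, fun g => ⟨h.levi', ?_⟩, fun u => h.U'_inf_P, fun u => h.U_inf_Pm,
    fun O hO => ?_, h.isClosed_U' θ, h.isClosed_L θ, h.isClosed_U θ, h.isClosed_P θ, h.isClosed_Pm θ⟩
  · rintro ⟨l, hl, v, hv, rfl⟩
    exact (F.P θ).mul_mem (h.L_le_P θ hl) (h.up_mem_P (h.U_le_Up θ hv) θ)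
  · rintro ⟨l, hl, v, hv, rfl⟩
    exact (F.Pm θ).mul_mem (h.L_le_Pm θ hl) (h.um_mem_Pm (h.U'_le_Um θ hv) θ)
  have h0 := h.isOpen_Ω.mem_nhds h.one_mem
  obtain ⟨a1, a2, a3⟩ := h.cell_at_one
  have h1 : Tendsto (fun g => F.lp θ (F.up g)) (𝓝 1) (𝓝 1) := by
    have h2 := (h.lp_cont_up θ 1 F.Up.one_mem).tendsto
    rw [h.lp_L (F.L θ).one_mem] at h2
    exact h2.comp (tendsto_nhdsWithin_iff.2 ⟨a3, mem_of_superset h0 fun g hg => h.up_mem g hg⟩)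
  have h2 : Tendsto (fun g => F.lp' θ (F.lo g)) (𝓝 1) (𝓝 1) := by
    have h2 := (h.lp'_cont_um θ 1 F.Um.one_mem).tendsto
    rw [h.lp'_L (F.L θ).one_mem] at h2
    exact h2.comp (tendsto_nhdsWithin_iff.2 ⟨a1, mem_of_superset h0 fun g hg => h.lo_mem g hg⟩)
  have b1 := a1.mul h2.inv
  have b2 := (h2.mul a2).mul h1
  have b3 := h1.inv.mul a3
  simp only [inv_one, mul_one] at b1 b2 b3
  filter_upwards [h0, b1 hO, b2 hO, b3 hO] with x hx c1 c2 c3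
  obtain ⟨d1, d2, -⟩ := h.lp'_spec (h.um_mem_Pm (h.lo_mem x hx) θ)
  obtain ⟨d3, d4, -⟩ := h.lp_spec (h.up_mem_P (h.up_mem x hx) θ)
  refine ⟨_, ?_, c1, _, (F.L θ).mul_mem ((F.L θ).mul_mem d1 (h.z_mem_L (h.md_mem hx) θ)) d3, c2,
    _, d4, c3, ?_⟩
  · simpa [mul_assoc] using h.U'_conj d1 d2
  · conv_lhs => rw [← F.lo_md_up x]
    group

theorem c2_univ (h : Fl F) : C2 F.Um F.Z F.Up (F.P Finset.univ) (F.Pm Finset.univ) := by
  have := c2 h Finset.univ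
  rwa [Subgroup.ext fun _ => h.U'_univ, Subgroup.ext fun _ => h.L_univ,
    Subgroup.ext fun _ => h.U_univ] at this

end Vale.Agent.P092GB
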