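import Vale.Agent.P092GB.Cell

/-!
P092, group package (helper61): simple reflections, discreteness of the heights.
-/

set_option linter.all false

open Filter Topology

namespace Vale.Agent.P092GB

open Vale.Agent.P092GK Vale.Agent.P092MG FlD

variable {k : Type} [NontriviallyNormedField k] {G : Type} [Group G] {r : ℕ}

/-- the unimodular part of the Levi subgroup of the simple root `i` -/
def L0 (F : FlD k G r) (i : Fin r) : Subgroup G := F.L₁ i ⊓ F.N (Finset.univ.erase i)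

/-- the coroot of the reflection `q` -/
noncomputable def cr (F : FlD k G r) (q : G) (i : Fin r) : Fin r → ℝ :=
  F.β⁻¹ • (F.ℓ (F.b i) - F.ℓ (q * F.b i * q⁻¹))

variable [TopologicalSpace G] [IsTopologicalGroup G] [T2Space G] {F : FlD k G r} (h : Fl F)
  {i : Fin r} {g q z : G}
include h

theorem mem_L0 : g ∈ L0 F i ↔ g ∈ F.L₁ i ∧ ∀ j, j ≠ i → ‖F.Δ j g‖ = 1 :=
  and_congr_right fun hg => h.N_iff.trans (by simp [h.L_le_P _ hg])

theorem z_mem_L0 (hz : z ∈ F.Z) : z ∈ L0 F i ↔ ∀ j, j ≠ i → F.ω (F.ℓ z) j = 0 := by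
  rw [mem_L0 h, and_iff_right (h.z_mem_L hz _)]
  refine forall₂_congr fun j _ => ?_
  rw [h.norm_Δ (h.z_mem hz), Real.exp_eq_one_iff]

theorem Δ_L {j : Fin r} (hj : j ≠ i) (g : G) (hq : q ∈ F.L₁ i) :
    F.Δ j (g * q) = F.Δ j g * F.Δ j q := h.Δ_P (h.L_le_P _ hq) (by simpa using hj) g

theorem Δ_L_inv {j : Fin r} (hj : j ≠ i) (hq : q ∈ F.L₁ i) : F.Δ j q * F.Δ j q⁻¹ = 1 := by
  rw [← Δ_L h hj _ ((F.L₁ i).inv_mem hq), mul_inv_cancel, h.Δ_one]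

theorem Δ_L_conj {j : Fin r} (hj : j ≠ i) (hq : q ∈ F.L₁ i) (hg : g ∈ F.L₁ i) :
    F.Δ j (q * g * q⁻¹) = F.Δ j g := by
  rw [Δ_L h hj _ ((F.L₁ i).inv_mem hq), Δ_L h hj _ hg, mul_right_comm, Δ_L_inv h hj hq, one_mul]

/-- an element of the big cell which normalises `Z` is in `Z` -/
theorem Z_of_Ω (hg : g ∈ F.Ω) (hn : ∀ z ∈ F.Z, g * z * g⁻¹ ∈ F.Z) : g ∈ F.Z := by
  have hc := h.cb_mem Finset.univ
  refine h.Z_of_norm hc (hn _ hc) (fun w hw => h.a_comm _ hw)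
    (fun i => h.ℓ_cb_pos (Finset.mem_univ i)) ?_
  have h1 := h.ℓ_zl (hn _ hc) hg
  rw [inv_mul_cancel_right, h.ℓ_zr hc hg, add_comm] at h1
  exact (add_right_cancel h1).symm

/-- the reflection formula -/
theorem ℓ_refl (hq : q ∈ F.L₁ i) (hn : ∀ z ∈ F.Z, q * z * q⁻¹ ∈ F.Z) (hz : z ∈ F.Z) :
    F.ℓ (q * z * q⁻¹) = F.ℓ z - F.ℓ z i • cr F q i := by
  funext m
  refine sub_eq_zero.1 (h.add_ext
    (f := fun z => F.ℓ (q * z * q⁻¹) m - (F.ℓ z - F.ℓ z i • cr F q i) m)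
    (fun a ha b hb => ?_) (fun Q hQ hZ => ?_) (fun j => ?_) hz)
  · rw [show q * (a * b) * q⁻¹ = q * a * q⁻¹ * (q * b * q⁻¹) by group, h.ℓ_mul (hn a ha) (hn b hb),
      h.ℓ_mul ha hb]
    simp only [Pi.add_apply, Pi.sub_apply, Pi.smul_apply, smul_eq_mul]
    ring
  · have h1 : ContinuousOn F.ℓ Q := h.contOn_ℓ.mono fun x hx => h.z_mem (hZ hx)
    have h2 : ContinuousOn (fun z => F.ℓ (q * z * q⁻¹)) Q :=
      h.contOn_ℓ.comp (by fun_prop) fun x hx => h.z_mem (hn x (hZ hx))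
    exact hQ.exists_bound_of_continuousOn (((continuous_apply m).comp_continuousOn h2).sub
      ((continuous_apply m).comp_continuousOn
        (h1.sub (((continuous_apply i).comp_continuousOn h1).smul continuousOn_const))))
  · rcases eq_or_ne j i with rfl | hj
    · simp [cr, h.bℓ, ← mul_assoc, mul_inv_cancel₀ h.β_pos.ne']
    · rw [← mem_L.1 hq j (by simpa using hj), mul_inv_cancel_right, h.bℓ, Pi.single_eq_of_ne hj.symm]
      simp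

theorem ω_cr (hq : q ∈ F.L₁ i) {j : Fin r} (hj : j ≠ i) : F.ω (cr F q i) j = 0 := by
  rw [cr, ω_smul, ω_sub, Pi.smul_apply, Pi.sub_apply, h.ω_ℓ, h.ω_ℓ,
    Δ_L_conj h hj hq (h.z_mem_L (h.bZ i) _), sub_self, smul_zero]

theorem cr_two (hq : q ∈ F.L₁ i) (hn : ∀ z ∈ F.Z, q * z * q⁻¹ ∈ F.Z) (h2 : q * q ∈ F.Z)
    (h0 : q ∉ F.Z) : cr F q i i = 2 := by
  have hc := h.cb_mem Finset.univ
  have hp := h.ℓ_cb_pos (Finset.mem_univ i)
  have h1 := ℓ_refl h hq hn (hn _ hc)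
  rw [show q * (q * F.cb Finset.univ * q⁻¹) * q⁻¹ = q * q * F.cb Finset.univ * (q * q)⁻¹ by group,
    h.ℓ_conj h2, ℓ_refl h hq hn hc, sub_sub, ← add_smul, eq_comm, sub_eq_self, smul_eq_zero] at h1
  rcases h1 with h1 | h1
  · simp only [Pi.sub_apply, Pi.smul_apply, smul_eq_mul] at h1
    exact mul_left_cancel₀ hp.ne' (by linarith)
  · refine absurd (h.Z_of_norm hc (hn _ hc) (fun w hw => h.a_comm _ hw)
      (fun i => h.ℓ_cb_pos (Finset.mem_univ i)) ?_) h0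
    rw [ℓ_refl h hq hn hc, h1, smul_zero, sub_zero]

/-- the vectors killed by all the other weights form a line -/
theorem line {δ y : Fin r → ℝ} (hδ : ∀ j, j ≠ i → F.ω δ j = 0) (h2 : δ i = 2)
    (hy : ∀ j, j ≠ i → F.ω y j = 0) : y = (y i / 2) • δ := by
  have e : ∀ x : Fin r → ℝ, (∀ j, j ≠ i → F.ω x j = 0) → x = F.ω x i • F.co (Pi.single i 1) :=
    fun x hx => by
      conv_lhs => rw [← h.co_ω x]
      rw [FlD.co, FlD.co, ← Matrix.mulVec_smul]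
      congr 1
      funext j
      rcases eq_or_ne j i with rfl | hj
      · simp
      · simp [hx j hj, Pi.single_eq_of_ne hj]
  have e1 := e δ hδ
  have e2 := e y hy
  generalize F.ω δ i = a at e1
  generalize F.ω y i = b at e2
  subst e1 e2
  simp only [Pi.smul_apply, smul_eq_mul] at h2 ⊢
  rw [smul_smul, ← h2]
  have : a ≠ 0 ∧ F.co (Pi.single i 1) i ≠ 0 := mul_ne_zero_iff.1 (by rw [h2]; norm_num)
  congr 1
  field_simp [this.1, this.2]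

theorem M_of_K {K : Subgroup G} (hK : IsCompact (K : Set G)) (hz : z ∈ F.Z) (hz' : z ∈ K) :
    z ∈ F.M := h.mem_M.2 ⟨hz, h.ℓ_zero_of_bdd hz hK fun n => K.pow_mem hz' n⟩

theorem opM (td : TD G) : OpIn F.M F.Z := by
  obtain ⟨K, h1, h2, -⟩ := td _ univ_mem
  exact opIn_of inf_le_left h1 K.one_mem fun l => M_of_K h h2

theorem op0 (td : TD G) (i : Fin r) : OpIn (L0 F i) (F.L₁ i) := by
  obtain ⟨K, h1, h2, -⟩ := td _ univ_mem
  refine opIn_of inf_le_left h1 K.one_mem fun l hl hK => (mem_L0 h).2 ⟨hl, fun j hj => ?_⟩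
  obtain ⟨B, hB⟩ := h2.exists_bound_of_continuousOn (h.contΔ j).continuousOn
  have key : ∀ l ∈ F.L₁ i, l ∈ K → ‖F.Δ j l‖ ≤ 1 := fun l hl hK => by
    have e : ∀ n : ℕ, F.Δ j (l ^ n) = F.Δ j l ^ n := fun n => by
      induction n with
      | zero => rw [pow_zero, pow_zero, h.Δ_one]
      | succ n ih => rw [pow_succ, pow_succ, Δ_L h hj _ hl, ih]
    by_contra hn
    obtain ⟨n, hn⟩ := pow_unbounded_of_one_lt B (not_le.1 hn)
    have := hB _ (K.pow_mem hK n)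
    rw [e, norm_pow] at this
    exact absurd hn (not_lt.2 this)
  have a := key l hl hK
  have b := key _ ((F.L₁ i).inv_mem hl) (K.inv_mem hK)
  have c := congrArg norm (Δ_L_inv h hj hl)
  rw [norm_mul, norm_one] at c
  nlinarith [norm_nonneg (F.Δ j l), norm_nonneg (F.Δ j l⁻¹)]

theorem fin_ℓ (td : TD G) (R : ℝ) : (F.ℓ '' {z | z ∈ F.Z ∧ ∀ i, |F.ℓ z i| ≤ R}).Finite := by
  obtain ⟨K, h1, h2, -⟩ := td _ univ_mem
  obtain ⟨t, ht, hc⟩ := (h.zprop R).elim_nhds_subcover (fun z => (fun x => z⁻¹ * x) ⁻¹' K)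
    fun z _ => (h1.preimage (by fun_prop)).mem_nhds (by simpa using K.one_mem)
  refine (t.finite_toSet.image F.ℓ).subset ?_
  rintro _ ⟨z, hz, rfl⟩
  obtain ⟨w, hw, a⟩ := Set.mem_iUnion₂.1 (hc hz)
  have b := (h.mem_M.1 (M_of_K h h2 (F.Z.mul_mem (F.Z.inv_mem (ht w hw).1) hz.1) a)).2
  rw [h.ℓ_mul (F.Z.inv_mem (ht w hw).1) hz.1, h.ℓ_inv (ht w hw).1] at b
  exact ⟨w, hw, neg_add_eq_zero.1 b⟩

/-- two proportional heights are commensurable -/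
theorem rk (td : TD G) {a b : G} (ha : a ∈ F.Z) (hb : b ∈ F.Z) {t : ℝ} (e : F.ℓ a = t • F.ℓ b) :
    ∃ m : ℕ, m ≠ 0 ∧ ∃ n : ℤ, a ^ m * b ^ n ∈ F.M := by
  have hm : ∀ (m : ℕ) (n : ℤ), a ^ m * b ^ n ∈ F.Z := fun m n =>
    F.Z.mul_mem (F.Z.pow_mem ha m) (F.Z.zpow_mem hb n)
  have hl : ∀ (m : ℕ) (n : ℤ), F.ℓ (a ^ m * b ^ n) = (m * t + n) • F.ℓ b := fun m n => by
    rw [h.ℓ_mul (F.Z.pow_mem ha m) (F.Z.zpow_mem hb n), h.ℓ_pow ha, h.ℓ_zpow hb, e, smul_smul,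
      add_smul]
  have hb' : ∀ (m : ℕ) i, |F.ℓ (a ^ m * b ^ (-⌊m * t⌋)) i| ≤ ‖F.ℓ b‖ := fun m i => by
    rw [hl, Pi.smul_apply, smul_eq_mul, abs_mul, Int.cast_neg, ← sub_eq_add_neg, Int.self_sub_floor,
      abs_of_nonneg (Int.fract_nonneg _)]
    exact (mul_le_of_le_one_left (abs_nonneg _) (Int.fract_lt_one _).le).trans
      (norm_le_pi_norm (F.ℓ b) i)
  obtain ⟨m, m', h1, h2⟩ := Set.Finite.exists_lt_map_eq_of_forall_mem
    (f := fun m : ℕ => F.ℓ (a ^ m * b ^ (-⌊m * t⌋)))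
    (t := F.ℓ '' {z | z ∈ F.Z ∧ ∀ i, |F.ℓ z i| ≤ ‖F.ℓ b‖})
    (fun m => ⟨_, ⟨hm _ _, hb' m⟩, rfl⟩) (fin_ℓ h td ‖F.ℓ b‖)
  refine ⟨m' - m, Nat.sub_ne_zero_of_lt h1, -⌊m' * t⌋ - -⌊m * t⌋, h.mem_M.2 ⟨hm _ _, ?_⟩⟩
  simp only [hl] at h2
  rw [hl, ← sub_eq_zero.2 h2.symm, ← sub_smul]
  push_cast [h1.le]
  congr 1
  ring

theorem exists_reg (hz : z ∈ F.Z) (hp : 0 < F.ℓ z i) : ∃ z' ∈ F.Z, (∀ j, 0 < F.ℓ z' j) ∧
    ∀ (n : ℕ), ∀ x ∈ F.L₁ i, z' ^ n * x * (z' ^ n)⁻¹ = z ^ n * x * (z ^ n)⁻¹ ∧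
      (z' ^ n)⁻¹ * x * z' ^ n = (z ^ n)⁻¹ * x * z ^ n := by
  let t : Fin r → ℤ := fun j => if j = i then 0 else ⌊-F.ℓ z j / F.β⌋ + 1
  refine ⟨z * F.a t, F.Z.mul_mem hz (h.a_mem t), fun j => ?_, fun n x hx => ?_⟩
  · rw [h.ℓ_mul hz (h.a_mem t), h.ℓ_a, Pi.add_apply]
    rcases eq_or_ne j i with rfl | hj
    · simpa [t] using hp
    · have := Int.lt_floor_add_one (-F.ℓ z j / F.β)
      rw [div_lt_iff₀ h.β_pos] at this
      simp only [t, if_neg hj]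
      push_cast
      linarith
  · have h1 : Commute (F.a t ^ n) x :=
      Commute.pow_left (h.a_comm_L hx fun j hj => by simpa [t] using fun a => (hj (by simpa using a)).elim) n
    have h2 : Commute z (F.a t) := (h.a_comm t hz).symm
    constructor
    · rw [h2.mul_pow, mul_assoc (z ^ n), h1.eq]; group
    · rw [h2.eq, h2.symm.mul_pow, mul_inv_rev, mul_assoc (z ^ n)⁻¹, h1.inv_left.eq]; group

theorem con_um (hz : z ∈ F.Z) (hp : 0 < F.ℓ z i) {C : Set G} (hC : IsCompact C)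
    (hc : ∀ x ∈ C, x ∈ F.Um ∧ x ∈ F.L₁ i) {O : Set G} (hO : O ∈ 𝓝 (1 : G)) :
    ∀ᶠ n : ℕ in atTop, ∀ x ∈ C, z ^ n * x * (z ^ n)⁻¹ ∈ O := by
  obtain ⟨w, hw, h1, h2⟩ := exists_reg h hz hp
  obtain ⟨T, -, hT⟩ := h.um_contr hC hO
  filter_upwards [eventually_all.2 fun j => (h.tendsto_pow hw (h1 j)).eventually_ge_atTop T]
    with n hn x hx
  exact (h2 n x (hc x hx).2).1 ▸ hT _ (F.Z.pow_mem hw n) hn x hx (hc x hx).1

theorem con_up (hz : z ∈ F.Z) (hp : 0 < -F.ℓ z i) {C : Set G} (hC : IsCompact C)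
    (hc : ∀ x ∈ C, x ∈ F.Up ∧ x ∈ F.L₁ i) {O : Set G} (hO : O ∈ 𝓝 (1 : G)) :
    ∀ᶠ n : ℕ in atTop, ∀ x ∈ C, z ^ n * x * (z ^ n)⁻¹ ∈ O := by
  obtain ⟨w, hw, h1, h2⟩ := exists_reg h (i := i) (F.Z.inv_mem hz) (by rwa [h.ℓ_inv hz])
  obtain ⟨T, -, hT⟩ := h.up_contr hC hO
  filter_upwards [eventually_all.2 fun j => (h.tendsto_pow hw (h1 j)).eventually_ge_atTop T]
    with n hn x hx
  have := hT _ (F.Z.pow_mem hw n) hn x hx (hc x hx).1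
  rwa [(h2 n x (hc x hx).2).2, inv_pow, inv_inv] at this

end Vale.Agent.P092GB
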